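import Vale.Agent.P245.Quarter.Iterate
import Vale.Agent.P245.Tail
import Vale.Agent.P245.Assembly

/-!
# P245: the log-Sobolev constant of a subgaussian log-concave measure is `O(n ^ (1/4 + ε) a ^ 2)`
-/

open MeasureTheory
open Vale.Agent.P245

namespace Vale.Agent.Results.P245.QuarterExponent

/-- For every `ε > 0` there is a constant `C` such that every centred, linearly `a`-subgaussian
log-concave probability density on `ℝ^n` satisfies a log-Sobolev inequality with constant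
`C n ^ (1/4 + ε) a ^ 2`. -/
theorem result :
    ∀ ε : ℝ, 0 < ε → ∃ C : ℝ, 0 < C ∧
      ∀ n : ℕ, 1 ≤ n → ∀ ρ : EuclideanSpace ℝ (Fin n) → ℝ, (∀ x, 0 ≤ ρ x) →
        Convex ℝ {x | 0 < ρ x} → ConcaveOn ℝ {x | 0 < ρ x} (fun x => Real.log (ρ x)) →
        ∀ μ : Measure (EuclideanSpace ℝ (Fin n)),
          μ = (volume : Measure (EuclideanSpace ℝ (Fin n))).withDensity
            (fun x => ENNReal.ofReal (ρ x)) →
          IsProbabilityMeasure μ → (∫ x, x ∂μ) = 0 →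
          ∀ a : ℝ, 0 < a →
            (∀ θ : EuclideanSpace ℝ (Fin n), ‖θ‖ = 1 →
              ∫⁻ x, ENNReal.ofReal (Real.exp (inner ℝ x θ ^ 2 / a ^ 2)) ∂μ ≤ 2) →
            ∀ f : EuclideanSpace ℝ (Fin n) → ℝ, ContDiff ℝ (⊤ : ℕ∞) f → HasCompactSupport f →
              ∫ x, f x ^ 2 * Real.log (f x ^ 2) ∂μ
                  - (∫ x, f x ^ 2 ∂μ) * Real.log (∫ x, f x ^ 2 ∂μ)
                ≤ C * (n : ℝ) ^ (1 / 4 + ε) * a ^ 2 * ∫ x, ‖fderiv ℝ f x‖ ^ 2 ∂μ := by
  intro ε hε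
  set q : ℕ := max 4 ⌈3 / ε⌉₊ with hqdef
  have hq : 4 ≤ q := le_max_left _ _
  have hq0 : 0 < q := by omega
  have hq0' : (0 : ℝ) < q := by exact_mod_cast hq0
  have hexp : 3 * (q : ℝ)⁻¹ ≤ ε := by
    have h1 : 3 / ε ≤ (q : ℝ) :=
      (Nat.le_ceil _).trans (by exact_mod_cast le_max_right 4 ⌈3 / ε⌉₊)
    rw [div_le_iff₀ hε] at h1
    rw [← div_eq_mul_inv, div_le_iff₀ hq0']
    linarith
  have hT := potentialTail hq
  have hP := poincareBound_of_tail hq hT
  obtain ⟨C, hC, hfin⟩ := final_of_core (coreBound_quarter hq hP)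
  refine ⟨C, hC, fun n hn ρ h0 hcv hlc μ hμ hp hmean a ha hsub f hf hfs => ?_⟩
  refine (hfin n hn ρ h0 hcv hlc μ hμ hp hmean a ha hsub f hf hfs).trans ?_
  refine mul_le_mul_of_nonneg_right (mul_le_mul_of_nonneg_right (mul_le_mul_of_nonneg_left ?_ hC.le)
    (sq_nonneg a)) (dir_nonneg f)
  exact Real.rpow_le_rpow_of_exponent_le (by exact_mod_cast hn) (by linarith)

end Vale.Agent.Results.P245.QuarterExponent
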